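import Crest.Agent.R193.Defs
import Crest.Agent.R135.TWeylAux

/-!
# R193/W/Weyl: Weyl's lemma for continuous weakly harmonic functions
-/

set_option autoImplicit false
open Set Metric Filter Topology MeasureTheory InnerProductSpace
open scoped Convolution

namespace Crest.Agent.R193
open Crest.Agent.R135

theorem w_lap_eq {E : Type} [NormedAddCommGroup E] [NormedSpace ℝ E] {G : ℂ → E} {z : ℂ}
    (hG : ContDiffAt ℝ 2 G z) :
    Laplacian.laplacian G z = fderiv ℝ (fun y => fderiv ℝ G y 1) z 1 +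
      fderiv ℝ (fun y => fderiv ℝ G y Complex.I) z Complex.I := by
  have hd : DifferentiableAt ℝ (fderiv ℝ G) z :=
    (hG.fderiv_right (m := 1) (by norm_num)).differentiableAt (by simp)
  have key : ∀ c d : ℂ, fderiv ℝ (fun y => fderiv ℝ G y c) z d = fderiv ℝ (fderiv ℝ G) z d c := by
    intro c d
    rw [fderiv_clm_apply hd (differentiableAt_const c)]
    simp
  rw [key, key, laplacian_eq_iteratedFDeriv_complexPlane]
  simp [iteratedFDeriv_two_apply]

theorem wM_half {W : Set ℂ} {f : ℂ → ℂ} (hf : LocallyIntegrableOn f W)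
    (h : ∀ ψ, WyT W ψ → ∫ z, lap ψ z • f z = 0)
    {φ η : ℂ → ℝ} (hφ : ContDiff ℝ (⊤ : ℕ∞) φ) (hη : ContDiff ℝ (⊤ : ℕ∞) η)
    (h0 : ∀ z, 1 ≤ ‖z‖ → φ z = 0) (h0' : ∀ z, 1 ≤ ‖z‖ → η z = 0)
    (hl : ∀ z, lap η z = φ z - 4 * φ (2 * z)) {t : ℝ} (ht : 0 < t) {p : ℂ}
    (hp : closedBall p t ⊆ W) : wyM φ f (t / 2) p = wyM φ f t p := by
  have T1 := wyK_test hφ h0 ht hp
  have T2 := wyK_test hφ h0 (half_pos ht)
    ((closedBall_subset_closedBall (half_le_self ht.le)).trans hp)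
  have i1 : Integrable fun z => t⁻¹ ^ 2 • wyK φ t p z • f z :=
    (wy_int hf T1.sm.continuous T1.cs T1.sub).smul (t⁻¹ ^ 2)
  have i2 : Integrable fun z => (t / 2)⁻¹ ^ 2 • wyK φ (t / 2) p z • f z :=
    (wy_int hf T2.sm.continuous T2.cs T2.sub).smul ((t / 2)⁻¹ ^ 2)
  have key := h _ (wyK_test hη h0' ht hp)
  symm
  rw [← sub_eq_zero, ← key]
  unfold wyM
  simp only [mul_smul]
  rw [← integral_sub i1 i2]
  refine integral_congr_ae (Eventually.of_forall fun z => ?_)
  simp only [wyK_lap hη, hl, ← mul_smul, ← sub_smul, wyK]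
  congr 1
  have e : (t / 2)⁻¹ • (p - z) = 2 * (t⁻¹ • (p - z)) := by
    simp only [Complex.real_smul]
    push_cast
    field_simp
  rw [e]
  field_simp
  ring

theorem wM_contDiff {g : ℂ → ℂ} (hg : LocallyIntegrable g) {φ : ℂ → ℝ}
    (hφ : ContDiff ℝ (⊤ : ℕ∞) φ) (h0 : ∀ z, 1 ≤ ‖z‖ → φ z = 0) {t : ℝ} (ht : 0 < t) :
    ContDiff ℝ (⊤ : ℕ∞) (wyM φ g t) := by
  set k : ℂ → ℝ := fun y => t⁻¹ ^ 2 * φ (t⁻¹ • y) with hk
  have hks : ContDiff ℝ (⊤ : ℕ∞) k := contDiff_const.mul (hφ.comp (contDiff_id.const_smul _))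
  have hkc : HasCompactSupport k := by
    refine HasCompactSupport.intro (isCompact_closedBall (0 : ℂ) t) fun y hy => ?_
    have : φ (t⁻¹ • y) = 0 := by
      apply h0
      rw [mem_closedBall, dist_zero_right, not_le] at hy
      rw [norm_smul, Real.norm_eq_abs, abs_of_pos (inv_pos.2 ht), ← div_eq_inv_mul, le_div_iff₀ ht]
      linarith
    simp only [hk, this, mul_zero]
  set L : ℂ →L[ℝ] ℝ →L[ℝ] ℂ := (ContinuousLinearMap.lsmul ℝ ℝ).flip with hL
  have e : wyM φ g t = g ⋆[L, volume] k := by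
    funext q
    simp [wyM, convolution_def, hL, hk, wyK]
  rw [e]
  exact hkc.contDiff_convolution_right L hg hks

theorem w_der_smooth {φ : ℂ → ℝ} (hφ : ContDiff ℝ (⊤ : ℕ∞) φ) (d : ℂ) :
    ContDiff ℝ (⊤ : ℕ∞) fun z => fderiv ℝ φ z d :=
  (hφ.fderiv_right (m := (⊤ : ℕ∞)) (by simp)).clm_apply contDiff_const

theorem w_der_zero {φ : ℂ → ℝ} (hφ : ContDiff ℝ (⊤ : ℕ∞) φ) (h0 : ∀ z, 1 ≤ ‖z‖ → φ z = 0)
    (d : ℂ) : ∀ z, 1 ≤ ‖z‖ → fderiv ℝ φ z d = 0 := by
  have hc : IsClosed {z | fderiv ℝ φ z d = 0} :=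
    isClosed_eq (w_der_smooth hφ d).continuous continuous_const
  have h1 : (closedBall (0 : ℂ) 1)ᶜ ⊆ {z | fderiv ℝ φ z d = 0} := by
    intro z hz
    have : φ =ᶠ[𝓝 z] fun _ => 0 := by
      filter_upwards [isClosed_closedBall.isOpen_compl.mem_nhds hz] with y hy
      apply h0
      rw [mem_compl_iff, mem_closedBall, dist_zero_right, not_le] at hy
      exact hy.le
    simp only [mem_ofPred_eq]
    rw [this.fderiv_eq]
    simp
  have h2 := closure_minimal h1 hc
  rw [closure_compl, interior_closedBall _ one_ne_zero] at h2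
  intro z hz
  apply h2
  rw [mem_compl_iff, mem_ball, dist_zero_right, not_lt]
  exact hz

theorem wM_fderiv {g : ℂ → ℂ} (hg : LocallyIntegrable g) {φ : ℂ → ℝ}
    (hφ : ContDiff ℝ (⊤ : ℕ∞) φ) (h0 : ∀ z, 1 ≤ ‖z‖ → φ z = 0) {t : ℝ} (ht : 0 < t) (p d : ℂ) :
    fderiv ℝ (wyM φ g t) p d = t⁻¹ • wyM (fun y => fderiv ℝ φ y d) g t p := by
  rw [(wyM_hasFDeriv hg hφ h0 ht p).2 d]
  unfold wyM
  rw [← integral_const_mul, ← integral_smul]
  refine integral_congr_ae (Eventually.of_forall fun z => ?_)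
  simp only [wyK_fderiv (hφ.differentiable (by simp)), wyK, Complex.real_smul]
  push_cast
  ring

theorem wM_lap {g : ℂ → ℂ} (hg : LocallyIntegrable g) {φ : ℂ → ℝ}
    (hφ : ContDiff ℝ (⊤ : ℕ∞) φ) (h0 : ∀ z, 1 ≤ ‖z‖ → φ z = 0) {t : ℝ} (ht : 0 < t) (p : ℂ) :
    Laplacian.laplacian (wyM φ g t) p = t⁻¹ ^ 2 • ∫ z, lap (wyK φ t p) z • g z := by
  rw [w_lap_eq ((wM_contDiff hg hφ h0 ht).contDiffAt.of_le (WithTop.coe_le_coe.2 le_top))]
  have key : ∀ d : ℂ, fderiv ℝ (fun y => fderiv ℝ (wyM φ g t) y d) p d =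
      t⁻¹ ^ 2 • wyM (fun y => fderiv ℝ (fun y => fderiv ℝ φ y d) y d) g t p := by
    intro d
    have e : (fun y => fderiv ℝ (wyM φ g t) y d) =
        fun y => t⁻¹ • wyM (fun y => fderiv ℝ φ y d) g t y :=
      funext fun y => wM_fderiv hg hφ h0 ht y d
    have hd : DifferentiableAt ℝ (wyM (fun y => fderiv ℝ φ y d) g t) p :=
      (wyM_hasFDeriv hg (w_der_smooth hφ d) (w_der_zero hφ h0 d) ht p).1
    rw [e, fderiv_fun_const_smul hd]
    simp only [smul_apply]
    rw [wM_fderiv hg (w_der_smooth hφ d) (w_der_zero hφ h0 d) ht, smul_smul, sq]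
  rw [key, key, ← smul_add]
  congr 1
  have ii : ∀ d : ℂ, Integrable fun z =>
      (t⁻¹ ^ 2 * wyK (fun y => fderiv ℝ (fun y => fderiv ℝ φ y d) y d) t p z) • g z := by
    intro d
    have T := wyK_test (W := univ) (w_der_smooth (w_der_smooth hφ d) d)
      (w_der_zero (w_der_smooth hφ d) (w_der_zero hφ h0 d) d) ht (p := p) (subset_univ _)
    have := (wy_int (hg.locallyIntegrableOn univ) T.sm.continuous T.cs T.sub).smul (t⁻¹ ^ 2)
    simp only [mul_smul]
    exact this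
  unfold wyM
  rw [← integral_add (ii 1) (ii Complex.I)]
  refine integral_congr_ae (Eventually.of_forall fun z => ?_)
  beta_reduce
  rw [wyK_lap hφ]
  simp only [← add_smul, ← mul_add, wyK, lap]

/-- Weyl's lemma -/
theorem weyl_harm {W : Set ℂ} (hW : IsOpen W) {f : ℂ → ℂ} (hfc : ContinuousOn f W)
    (h : ∀ ψ, WyT W ψ → ∫ z, lap ψ z • f z = 0) : ∀ x ∈ W, HarmonicAt f x := by
  have hf : LocallyIntegrableOn f W := hfc.locallyIntegrableOn hW.measurableSet
  obtain ⟨φ, η, hφ, hη, h0, h0', -, h1, -, -, hl⟩ := exists_mol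
  set s : ℕ → ℝ := fun n => 1 / 2 ^ n with hs
  have hs0 : ∀ n, 0 < s n := fun n => by positivity
  have hst : Tendsto s atTop (𝓝 0) := by
    have := tendsto_pow_atTop_nhds_zero_of_lt_one (r := (1 / 2 : ℝ)) (by norm_num) (by norm_num)
    simpa [hs] using this
  intro x hx
  obtain ⟨ε, hε, hb⟩ := Metric.isOpen_iff.1 hW x hx
  obtain ⟨N, hN⟩ := ((tendsto_order.1 hst).2 (ε / 3) (by positivity)).exists
  have hr := hs0 N
  have hsub : closedBall x (2 * s N) ⊆ W := (closedBall_subset_ball (by linarith)).trans hb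
  have hsN : ∀ n, N ≤ n → s n ≤ s N := fun n hn => by
    simp only [hs]; gcongr; norm_num
  have hball : ∀ p ∈ ball x (s N), ∀ t, t ≤ s N → closedBall p t ⊆ closedBall x (2 * s N) := by
    intro p hp t ht
    apply closedBall_subset_closedBall'
    have := mem_ball.1 hp
    linarith
  have hconst : ∀ p ∈ ball x (s N), ∀ n, N ≤ n → wyM φ f (s n) p = wyM φ f (s N) p := by
    intro p hp n hn
    induction n, hn using Nat.le_induction with
    | base => rfl
    | succ n hn ih =>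
      rw [← ih, show s (n + 1) = s n / 2 by simp only [hs]; ring]
      exact wM_half hf h hφ hη h0 h0' hl (hs0 n) ((hball p hp _ (hsN n hn)).trans hsub)
  set f' : ℂ → ℂ := (closedBall x (2 * s N)).indicator f with hf'
  have hfi : LocallyIntegrable f' :=
    ((integrable_indicator_iff measurableSet_closedBall).2
      (hf.integrableOn_compact_subset hsub (isCompact_closedBall _ _))).locallyIntegrable
  have hff : ∀ p ∈ ball x (s N), ∀ n, N ≤ n → wyM φ f (s n) p = wyM φ f' (s n) p := by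
    intro p hp n hn
    refine wyM_congr h0 (hs0 n) fun z hz => ?_
    simp only [hf', indicator_of_mem (hball p hp _ (hsN n hn) hz)]
  have hG := wM_contDiff hfi hφ h0 hr
  have hbW : ball x (s N) ⊆ W := fun p hp =>
    hsub (hball p hp 0 hr.le (mem_closedBall_self le_rfl))
  have hae : ∀ᵐ p, p ∈ ball x (s N) → f p = wyM φ f' (s N) p := by
    filter_upwards [wyM_ae hfi hφ.continuous h0 h1] with p hp hpb
    have t1 : Tendsto s atTop (𝓝[>] 0) :=
      tendsto_nhdsWithin_iff.2 ⟨hst, Eventually.of_forall hs0⟩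
    have t2 := hp.comp t1
    have t3 : Tendsto (fun n => wyM φ f' (s n) p) atTop (𝓝 (wyM φ f' (s N) p)) := by
      refine tendsto_const_nhds.congr' ?_
      filter_upwards [eventually_ge_atTop N] with n hn
      rw [← hff p hpb N le_rfl, ← hconst p hpb n hn, hff p hpb n hn]
    have := tendsto_nhds_unique t3 t2
    rw [this, hf', indicator_of_mem (hball p hpb 0 hr.le (mem_closedBall_self le_rfl))]
  have heq : EqOn f (wyM φ f' (s N)) (ball x (s N)) :=
    Measure.eqOn_open_of_ae_eq ((ae_restrict_iff' measurableSet_ball).2 hae) isOpen_ball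
      (hfc.mono hbW) hG.continuous.continuousOn
  have hev : f =ᶠ[𝓝 x] wyM φ f' (s N) := by
    filter_upwards [ball_mem_nhds x hr] with p hp using heq hp
  rw [harmonicAt_congr_nhds hev]
  refine ⟨hG.contDiffAt.of_le (WithTop.coe_le_coe.2 le_top), ?_⟩
  filter_upwards [ball_mem_nhds x hr] with p hp
  rw [wM_lap hfi hφ h0 hr]
  have T := wyK_test hφ h0 hr (hball p hp _ le_rfl)
  have hz := h _ (wyK_test hφ h0 hr ((hball p hp _ le_rfl).trans hsub))
  have ee : ∫ z, lap (wyK φ (s N) p) z • f' z = ∫ z, lap (wyK φ (s N) p) z • f z := by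
    refine integral_congr_ae (Eventually.of_forall fun z => ?_)
    by_cases hz : z ∈ closedBall x (2 * s N)
    · simp only [hf', indicator_of_mem hz]
    · have : ∀ d, fderiv ℝ (fun y => fderiv ℝ (wyK φ (s N) p) y d) z d = 0 := fun d =>
        image_eq_zero_of_notMem_tsupport
          (f := fun z => fderiv ℝ (fun y => fderiv ℝ (wyK φ (s N) p) y d) z d)
          fun hm => hz (((T.der d).der d).sub hm)
      simp [lap, this]
  rw [ee, hz]
  simp

end Crest.Agent.R193
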